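import Vale.Agent.P307.R2.H27.Succ
import Vale.Agent.P307.R2.H650.Od
import Vale.Agent.P307.R2.H913.FinChain

/-!
Independence of two models over a third one is decided by pieces of a bounded size.
-/

set_option linter.unusedSectionVars false

universe u

open Set Cardinal Function

namespace Vale.Agent.P307.R2.H27

open Vale.Agent.P307.R2.H541 Vale.Agent.P307.R2.H541.PG Vale.Agent.P307.R2.H650
  Vale.Agent.P307.R2.H913

variable {C : Type u} {M : PG C}

/-- Atomic models over a prime chain and a model which is free from it. -/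
def TopJ (M : PG C) : Prop := ∀ (ι : Type u) [LinearOrder ι] [WellFoundedLT ι] (P : Set C)
  (c : ι → C) (Q : ι → Set C), PCh M P c Q → #ι ≤ M.χ → #(tot P Q) ≤ M.χ → ∀ R ∈ M.S, P ⊆ R →
    M.Ind P (tot P Q) R → ∃ N, M.Atomic N (tot P Q ∪ R)

theorem image_fix {g : Equiv.Perm C} {P : Set C} (h : ∀ x ∈ P, g x = x) : g '' P = P := by
  ext x
  constructor
  · rintro ⟨y, hy, rfl⟩
    rwa [h y hy]
  · intro hx
    exact ⟨x, hx, h x hx⟩

theorem exists_id {P : Set C} {ι : Type u} [LinearOrder ι] {Q : ι → Set C} {c : ι → C}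
    (h : PCh M P c Q) (hc : #(tot P Q) ≤ M.χ) (hcn : ∀ i, c i ∉ pre P Q i) : #ι ≤ M.χ := by
  have hlt : ∀ i j, i < j → c i ≠ c j := by
    intro i j hij he
    exact hcn j (he ▸ sub_pre P Q hij (h.mem i))
  have hinj : Injective fun i : ι => (⟨c i, sub_tot P Q i (h.mem i)⟩ : (tot P Q : Set C)) := by
    intro i j hij
    have hij' : c i = c j := congrArg Subtype.val hij
    rcases lt_trichotomy i j with h | h | h
    · exact absurd hij' (hlt i j h)
    · exact h
    · exact absurd hij'.symm (hlt j i h)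
  exact (mk_le_of_injective hinj).trans hc

/-- Omitting the points which add nothing. -/
theorem PCh.tot_restrict' {P : Set C} (hC : Chn M) {ι : Type u} [LinearOrder ι] [WellFoundedLT ι]
    {c : ι → C} {Q : ι → Set C} (h : PCh M P c Q) (hc : #(tot P Q) ≤ M.χ) :
    ∃ J : Set ι, #J ≤ M.χ ∧ PCh M P (fun i : J => c i) (fun i : J => Q i) ∧
      tot P (fun i : J => Q i) = tot P Q ∧ ∀ i : J, c i ∉ pre P (fun i : J => Q i) i := by
  classical
  let J : Set ι := {i | c i ∉ pre P Q i}
  have hsat : ∀ i, c i ∈ pre P Q i → Q i = pre P Q i := by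
    intro i hi
    refine Subset.antisymm ?_ (h.pre_sub i)
    intro e he
    have hpm := h.pre_mem hC hc i
    have hat := h.atomic i
    have h1 : {c i} ∪ pre P Q i = pre P Q i :=
      union_eq_self_of_subset_left (singleton_subset_iff.2 hi)
    rw [h1] at hat
    obtain ⟨B, hB, hBc, hiso⟩ := hat.iso {e} (singleton_subset_iff.2 he)
      (small_finite (finite_singleton e))
    obtain ⟨g, hg, h2, h3⟩ := M.sat hpm hB hBc (small_finite (finite_singleton e)) (B := {e})
    have h4 := hiso.eq_of_mem hg h2 (h3 e rfl)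
    rw [← h4]
    exact h3 e rfl
  -- the part before `i` in the restricted chain
  have hpre : ∀ i : ι, P ∪ ⋃ j : {j : J // (j : ι) < i}, Q (j : J) = pre P Q i := by
    intro i
    induction i using (wellFounded_lt (α := ι)).induction with
    | h i ih =>
      refine Subset.antisymm ?_ ?_
      · refine union_subset_union_right P (iUnion_subset fun j => ?_)
        exact subset_iUnion (fun j : Iio i => Q j) ⟨(j : J), j.2⟩
      · refine union_subset subset_union_left (iUnion_subset fun j => ?_)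
        by_cases hj : (j : ι) ∈ J
        · exact (subset_iUnion (fun j : {j : J // (j : ι) < i} => Q (j : J))
            ⟨⟨j, hj⟩, j.2⟩).trans subset_union_right
        · have h1 : c (j : ι) ∈ pre P Q j := by
            by_contra h2
            exact hj h2
          rw [hsat j h1, ← ih j j.2]
          refine union_subset_union_right P (iUnion_subset fun k => ?_)
          exact subset_iUnion (fun j : {j : J // (j : ι) < i} => Q (j : J))
            ⟨k.1, lt_trans k.2 j.2⟩
  have hpre' : ∀ i : J, pre P (fun j : J => Q j) i = pre P Q i := by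
    intro i
    rw [← hpre i]
    rfl
  have htot : tot P (fun i : J => Q i) = tot P Q := by
    refine Subset.antisymm (union_subset_union_right P (iUnion_subset fun j =>
      subset_iUnion Q j)) ?_
    refine union_subset subset_union_left (iUnion_subset fun j => ?_)
    by_cases hj : j ∈ J
    · exact sub_tot P (fun i : J => Q i) ⟨j, hj⟩
    · have h1 : c j ∈ pre P Q j := by
        by_contra h2
        exact hj h2
      rw [hsat j h1, ← hpre j]
      refine union_subset_union_right P (iUnion_subset fun k => ?_)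
      exact subset_iUnion (fun i : J => Q i) k.1
  have hP : PCh M P (fun i : J => c i) (fun i : J => Q i) := by
    refine ⟨h.base, fun i => ?_, fun i => ?_⟩
    · rw [hpre' i]
      exact h.ind i
    · rw [hpre' i]
      exact h.atomic i
  have hout : ∀ i : J, c i ∉ pre P (fun i : J => Q i) i := fun i => by
    rw [hpre' i]
    exact i.2
  exact ⟨J, exists_id hP (by rw [htot]; exact hc) hout, hP, htot, hout⟩

/-- Omitting the points which add nothing. -/
theorem PCh.tot_restrict {P : Set C} (hC : Chn M) {ι : Type u} [LinearOrder ι] [WellFoundedLT ι]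
    {c : ι → C} {Q : ι → Set C} (h : PCh M P c Q) (hc : #(tot P Q) ≤ M.χ) :
    ∃ J : Set ι, #J ≤ M.χ ∧ PCh M P (fun i : J => c i) (fun i : J => Q i) ∧
      tot P (fun i : J => Q i) = tot P Q := by
  obtain ⟨J, h1, h2, h3, -⟩ := PCh.tot_restrict' hC h hc
  exact ⟨J, h1, h2, h3⟩

/-- **Pairs of models.** -/
theorem exists_full_pair (hχ : ℵ₀ < M.χ) (hM : M.Calc) (hB : M.Big) (hC : Chn M) (hF : FreeM M)
    (hDI : ∀ P ∈ M.S, ∀ c : C, ∃ N, M.Atomic N ({c} ∪ P)) (hPt : Pt1 M) (hTop : TopJ M)
    (hT : TmP M) : ∃ s < M.χ, ∀ D ∈ M.S, ∀ B ∈ M.S, ∀ Q ∈ M.S, D ⊆ B → D ⊆ Q →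
      (∀ y ⊆ B, #y ≤ s → M.Ind D y Q) → M.Ind D B Q := by
  obtain ⟨s, hs, hsucc⟩ := ind_succ hM hB hT (σ := ℵ₀) hχ
  refine ⟨ℵ₀ + s, add_lt_of_lt M.hχ hχ hs, fun D hD B hBS Q hQ hDB hDQ hy => ?_⟩
  obtain ⟨g, hg, hgD, hgI⟩ := hF D hD Q hQ hDQ B (M.S_card hBS).le
  obtain ⟨R, hR0, hRm, hRS, hRU, hRch⟩ := exists_od hC hDI hD hBS hDB
  have hRB : ∀ n, R n ⊆ B := fun n => by
    rw [← hRU]
    exact subset_iUnion R n
  have hDR : ∀ n, D ⊆ R n := fun n => by
    rw [← hR0]
    exact hRm (Nat.zero_le n)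
  -- the sequence of models over `Q`
  obtain ⟨q, hq, hqq⟩ := exists_seq
    (fun n (p : Set C × Equiv.Perm C) => M.Atomic p.1 (Q ∪ R n) ∧ p.2 ∈ M.G ∧
      (∀ a ∈ R n, p.2 a = a) ∧ ∀ a ∈ Q, p.2 a = g a)
    (fun n p p' => p.1 ⊆ p'.1 ∧ ∀ a ∈ p.1, p'.2 a = p.2 a) (by
      refine ⟨(Q, g), ?_, hg, ?_, fun a _ => rfl⟩
      · rw [hR0, union_eq_self_of_subset_right hDQ]
        exact ⟨hQ, Subset.rfl, fun E hE hEc => ⟨E, hE, hEc, Isol.self Subset.rfl⟩⟩
      · rw [hR0]
        exact hgD) (by
      rintro n ⟨Z, h⟩ ⟨hZ, hh, hhR, hhQ⟩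
      obtain ⟨ι₀, i1, i2, c₀, T₀, hch₀, htot₀⟩ := hRch n
      have hc₀ : #(tot (R n) T₀) ≤ M.χ := by
        rw [← htot₀]
        exact (M.S_card (hRS _)).le
      obtain ⟨J, hJc, hch, htot⟩ := PCh.tot_restrict hC hch₀ hc₀
      rw [← htot₀] at htot
      have hcc : #(tot (R n) fun i : J => T₀ i) ≤ M.χ := by
        rw [htot]
        exact (M.S_card (hRS _)).le
      have hRZ : R n ⊆ Z := subset_union_right.trans hZ.sub
      have hQZ : Q ⊆ Z := subset_union_left.trans hZ.sub
      -- the pair `R n`, `Q` over `D`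
      have hpair : M.Ind D (R n) Q :=
        ind_of_glue hD hM hh hhR (hDR n) hhQ (hgI.mono Subset.rfl (hRB n))
      -- the finite sets of points
      have hpt : ∀ x ⊆ B, x.Finite → M.Ind (R n) x Z := by
        intro x hx hxf
        have h1 : M.Ind (R n) x Q := by
          refine hsucc D hD (R n) (hRS n) Q hQ (hDR n) hDQ hpair x
            (lt_aleph0_iff_set_finite.2 hxf).le fun y hyR hyc => ?_
          refine hy (x ∪ y) (union_subset hx (hyR.trans (hRB n))) ?_
          exact (mk_union_le _ _).trans (add_le_add (lt_aleph0_iff_set_finite.2 hxf).le hyc)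
        exact hM.sym (hRS n) (hZ.dom (hM.sym (hRS n) h1))
      have himg : h '' (Q ∪ R n) = g '' Q ∪ R n := by
        rw [image_union]
        congr 1
        · exact image_congr hhQ
        · exact image_fix hhR
      have hpt' : ∀ x ⊆ B, M.Ind (R n) x (h '' Z) := by
        intro x hx
        have h1 : M.Ind (R n) (g '' Q) x := hM.ind_base hD (hRS n) (hDR n)
          (hgI.mono Subset.rfl (union_subset (hRB n) hx))
        have h2 : M.Atomic (h '' Z) (g '' Q ∪ R n) := by
          rw [← himg]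
          exact atomic_map hZ hh
        exact hM.sym (hRS n) (h2.dom h1)
      have hcB : ∀ x : Finset J, ((fun i : J => c₀ i) '' x : Set C) ⊆ B := by
        rintro x _ ⟨i, -, rfl⟩
        refine hRB (n + 1) ?_
        rw [htot₀]
        exact sub_tot _ _ _ (hch₀.mem i)
      obtain ⟨h', hh', h1', h2'⟩ := hch.exists_glue hM hB hC hPt hcc hJc hZ.mem hRZ
        (fun x => hpt _ (hcB x) (x.finite_toSet.image _)) hh hhR (fun x => hpt' _ (hcB x))
      have hind : M.Ind (R n) (R (n + 1)) Z := by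
        have h1 := hch.ind_of_fin hM hB hC hF hPt hcc hJc hZ.mem hRZ
          (fun x => hpt _ (hcB x) (x.finite_toSet.image _))
        rwa [htot] at h1
      obtain ⟨Z', hZ'⟩ := hTop J (R n) _ _ hch hJc hcc Z hZ.mem hRZ (by rw [htot]; exact hind)
      rw [htot] at hZ' h1'
      have hZ'' : M.Atomic Z' (Q ∪ R (n + 1)) := by
        have hTV : M.TV (Q ∪ R n) (Q ∪ R (n + 1)) :=
          tv_of_ind ((hM.sym (hRS n) hind).mono hQZ Subset.rfl)
        refine atomic_trans hZ' ?_ fun E hE hEc => ?_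
        · rintro x (hx | hx)
          · exact Or.inr (hQZ hx)
          · exact Or.inl hx
        · obtain ⟨B', hB', hBc', hiso⟩ := hZ.iso (E ∩ Z) inter_subset_right
            (small_subset inter_subset_left hEc)
          have hB'' : B' ⊆ Q ∪ R (n + 1) := hB'.trans
            (union_subset_union_right _ (hRm (Nat.le_succ n)))
          have h4 : M.Isol B' (Q ∪ R (n + 1)) (E ∩ Z) := hiso.lift hTV hB' hBc'
          have h5 : M.Isol (E ∩ R (n + 1) ∪ B') (Q ∪ R (n + 1)) (E ∩ Z) :=
            h4.mono_base subset_union_right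
          have hsub : E ∩ R (n + 1) ∪ B' ⊆ Q ∪ R (n + 1) :=
            union_subset (fun x hx => Or.inr hx.2) hB''
          have hcard : #(E ∩ R (n + 1) ∪ B' : Set C) < M.χ :=
            small_union (small_subset inter_subset_left hEc) hBc'
          refine ⟨_, hsub, hcard, (h5.union_self hsub hcard).subset fun e he => ?_⟩
          rcases hE he with h6 | h6
          · exact Or.inr (Or.inl ⟨he, h6⟩)
          · exact Or.inl ⟨he, h6⟩
      exact ⟨(Z', h'), ⟨hZ'', hh', h1', fun a ha => by
        rw [h2' a (hQZ ha), hhQ a ha]⟩, subset_union_right.trans hZ'.sub, h2'⟩)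
  -- the end
  have hmono : Monotone fun n => (q n).1 := monotone_nat_of_le_succ fun n => (hqq n).1
  have hcoh : ∀ n m, n ≤ m → ∀ a ∈ (q n).1, (q m).2 a = (q n).2 a := by
    intro n m hnm
    induction m, hnm using Nat.le_induction with
    | base => exact fun _ _ => rfl
    | succ m hm ih => exact fun a ha => by rw [(hqq m).2 a (hmono hm ha), ih a ha]
  have hcard : #(⋃ n : ULift.{u} ℕ, (q n.down).1 : Set C) ≤ M.χ := by
    refine (mk_iUnion_le _).trans ?_
    have h1 : #(ULift.{u} ℕ) ≤ M.χ := by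
      rw [mk_uLift, mk_nat, lift_aleph0]
      exact M.hχ
    have h2 : (⨆ n : ULift.{u} ℕ, #((q n.down).1 : Set C)) ≤ M.χ :=
      ciSup_le' fun n => (M.S_card (hq n.down).1.mem).le
    exact (mul_le_mul' h1 h2).trans (mul_eq_self M.hχ).le
  obtain ⟨u, hu, huq⟩ := hC.glue (ULift.{u} ℕ) (fun n => (q n.down).1) (fun n => (q n.down).2)
    (fun a b hab => hmono hab) (fun n => (hq n.down).1.mem) hcard
    (fun n => (hq n.down).2.1) (fun n m hnm a ha => hcoh n.down m.down hnm a ha)
  refine ind_of_glue hD hM hu ?_ hDB ?_ hgI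
  · intro a ha
    rw [← hRU] at ha
    obtain ⟨n, hn⟩ := mem_iUnion.1 ha
    rw [huq ⟨n⟩ a ((hq n).1.sub (Or.inr hn))]
    exact (hq n).2.2.1 a hn
  · intro a ha
    rw [huq ⟨0⟩ a ((hq 0).1.sub (Or.inl ha))]
    exact (hq 0).2.2.2 a ha

end Vale.Agent.P307.R2.H27
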