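import Vale.Agent.P307.R2.H732.TxRow
import Vale.Agent.P307.R2.H914.FuFin
import Vale.Agent.P307.R2.H301.Din.Rk2

/-!
The inputs of the shrinking row in dimension two: uniform tameness over pairs, and the bound for the
reflection below the faces.
-/

set_option linter.unusedSectionVars false

universe u v

open FirstOrder Cardinal Set

namespace Vale.Agent.P307.R2.H27

open Vale.Agent.P307 Vale.Agent.P307.H304 Vale.Agent.P307.R2.H287 Vale.Agent.P307.R2.H1
  Vale.Agent.P307.R2.H806 Vale.Agent.P307.R2.H971 Vale.Agent.P307.R2.H804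
  Language.Structure Language.Substructure
open Vale.Agent.P307.R2.H541 Vale.Agent.P307.R2.H541.PG Vale.Agent.P307.R2.H533
  Vale.Agent.P307.R2.H650 Vale.Agent.P307.R2.H718
open Vale.Agent.P307.R2.H514 (tH)
open Vale.Agent.P307.R2.H301 (EvM EvL)
open Vale.Agent.P307.R2.H732 (TXK)

open scoped Classical

section abs

variable {ι : Type v} {C : Type u} {M : PG C}

/-- A family of faces of a set with at most two elements has at most two maximal faces. -/
theorem exists_two_max {s : Finset ι} {F : Finset (Finset ι)} (hs : s.card ≤ 2)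
    (hF : F ⊆ s.ssubsets) (hd : Down F) :
    ∃ v ∈ F, ∃ w ∈ F, ∀ t ∈ F, t ⊆ v ∨ t ⊆ w := by
  have h0 : (∅ : Finset ι) ∈ F := hd.1
  have hone : ∀ t ∈ F, t = ∅ ∨ ∃ a ∈ s, t = {a} := by
    intro t ht
    have h1 := Finset.mem_ssubsets.1 (hF ht)
    have h2 := Finset.card_lt_card h1
    rcases Nat.eq_zero_or_pos t.card with h3 | h3
    · exact Or.inl (Finset.card_eq_zero.1 h3)
    · obtain ⟨a, rfl⟩ := Finset.card_eq_one.1 (show t.card = 1 by omega)
      exact Or.inr ⟨a, h1.1 (Finset.mem_singleton_self a), rfl⟩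
  rcases Nat.lt_or_ge s.card 2 with h1 | h1
  · refine ⟨∅, h0, ∅, h0, fun t ht => Or.inl ?_⟩
    rcases hone t ht with rfl | ⟨a, ha, rfl⟩
    · exact Finset.Subset.rfl
    · have h2 := Finset.card_lt_card (Finset.mem_ssubsets.1 (hF ht))
      rw [Finset.card_singleton] at h2
      omega
  · obtain ⟨a, b, -, rfl⟩ := Finset.card_eq_two.1 (le_antisymm hs h1)
    have key : ∀ x : ι, ∃ v ∈ F, ({x} : Finset ι) ∈ F → v = {x} := fun x => by
      by_cases hx : ({x} : Finset ι) ∈ F
      · exact ⟨_, hx, fun _ => rfl⟩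
      · exact ⟨∅, h0, fun h => absurd h hx⟩
    obtain ⟨v, hv, hv'⟩ := key a
    obtain ⟨w, hw, hw'⟩ := key b
    refine ⟨v, hv, w, hw, fun t ht => ?_⟩
    rcases hone t ht with rfl | ⟨x, hx, rfl⟩
    · exact Or.inl (Finset.empty_subset _)
    · rcases Finset.mem_insert.1 hx with rfl | hx
      · exact Or.inl (hv' ht).ge
      · rw [Finset.mem_singleton] at hx
        subst hx
        exact Or.inr (hw' ht).ge

/-- Below the faces with one direction there is nothing to reflect. -/
theorem fun_one (σ₀ : Cardinal.{u}) : H914.FUn.{u, v} M σ₀ 1 := by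
  intro ι v hv hvn A hA _
  have h1 := Finset.card_pos.2 hv
  obtain ⟨x, rfl⟩ := Finset.card_eq_one.1 (show v.card = 1 by omega)
  have h2 : ({x} : Finset ι).ssubsets = {∅} := by
    ext t
    rw [Finset.mem_ssubsets, Finset.ssubset_singleton_iff, Finset.mem_singleton]
  rw [h2]
  exact iref_zero

end abs

section

variable {L : Language.{u, u}} {K : AEC L} {ℓ θ : Cardinal.{u}}
  {κf α : Cardinal.{u} → Cardinal.{u}} {C : Type u} [L.Structure C]

variable (h₀ : BasePt K ℓ κf α θ) (hK : K.IsLS ℓ)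
  (hunb : ∀ ν, ν < κf ν ∧ K.CategoricalIn (κf ν)) (hst : Stab K ℓ α (H287.thr κf))
  (hCm : K.mem C) (hs : Sat K θ C) (hCc : #C = Order.succ θ)

/-- **Uniform tameness in dimension two**, with no hypothesis. -/
theorem pg_txk2 : TXK ℓ 2 (pg h₀ hK hunb hst hCm hs hCc) := by
  intro ι A s F hs' hF hA hR σ hσ ρ hρ
  obtain ⟨v, hv, w, hw, h1⟩ := exists_two_max hs' hF hA.down
  have h2 : iun A F = A v ∪ A w := by
    ext x
    constructor
    · rintro ⟨t, ht, hx⟩
      rcases h1 t ht with h3 | h3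
      · exact Or.inl (hA.mono v hv t h3 hx)
      · exact Or.inr (hA.mono w hw t h3 hx)
    · rintro (hx | hx)
      · exact ⟨v, hv, hx⟩
      · exact ⟨w, hw, hx⟩
  rw [h2]
  exact pg_tmL_two h₀ hK hunb hst hCm hs hCc
    (hA.mem _ (hA.down.2 v hv _ Finset.inter_subset_left)) (hA.mem v hv) (hA.mem w hw)
    (hA.mono v hv _ Finset.inter_subset_left) (hA.mono w hw _ Finset.inter_subset_right)
    (hR.ind hA.down hA hv hw) hσ hρ

end

variable {L : Language.{u, u}} {K : AEC L} {ℓ : Cardinal.{u}} {κf α : Cardinal.{u} → Cardinal.{u}}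

theorem evM_txk2 : EvM K ℓ κf α fun _ M => TXK ℓ 2 M :=
  ⟨0, fun _ _ h₀ hK hunb hst _ _ hCm hs hCc => pg_txk2 h₀ hK hunb hst hCm hs hCc⟩

end Vale.Agent.P307.R2.H27
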