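import Vale.Agent.P307.R2.H27.FullPair
import Vale.Agent.P307.R2.H732.Tx2
import Vale.Agent.P307.R2.H913.ChnPg
import Vale.Agent.P307.R2.H541.Di1
import Vale.Agent.P307.R2.H301.Din.Defs

/-!
Independence of strong submodels is decided by the pieces of a bounded size: the instance.
-/

set_option linter.unusedSectionVars false

universe u

open FirstOrder Cardinal Set

namespace Vale.Agent.P307.R2.H27

open Vale.Agent.P307 Vale.Agent.P307.H304 Vale.Agent.P307.R2.H287 Vale.Agent.P307.R2.H1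
  Vale.Agent.P307.R2.H971 Vale.Agent.P307.R2.H804 Language.Structure Language.Substructure
  Vale.Agent.P307.R2.H718
open Vale.Agent.P307.R2.H541 Vale.Agent.P307.R2.H541.PG Vale.Agent.P307.R2.H650
  Vale.Agent.P307.R2.H913
open Vale.Agent.P307.R2.H301 (Ev)

section

variable {C : Type u} {M : PG C}

/-- Atomic models over a proper prime chain and a model which is free from it. -/
def TopJ' (M : PG C) : Prop := ∀ (ι : Type u) [LinearOrder ι] [WellFoundedLT ι] (P : Set C)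
  (c : ι → C) (Q : ι → Set C), PCh M P c Q → (∀ j, c j ∉ pre P Q j) → (∀ j, pre P Q j ∈ M.S) →
    tot P Q ∈ M.S → #ι ≤ M.χ → ∀ R ∈ M.S, P ⊆ R → M.Ind P (tot P Q) R →
      ∃ N, M.Atomic N (tot P Q ∪ R)

theorem TopJ'.topJ (hC : Chn M) (h : TopJ' M) : TopJ M := by
  intro ι _ _ P c Q hch _ hc R hR hPR hI
  obtain ⟨J, h1, h2, h3, h4⟩ := PCh.tot_restrict' hC hch hc
  have hcJ : #(tot P fun i : J => Q i) ≤ M.χ := by rwa [h3]
  rw [← h3] at hI ⊢
  exact h J P _ _ h2 h4 (fun i => h2.pre_mem hC hcJ i) (h2.tot_mem hC hcJ) h1 R hR hPR hI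

/-- One point. -/
theorem TopJ.pt1 (h : TopJ M) : Pt1 M := by
  intro P hP Q hQ hPQ c N hI hN
  have hPN : P ⊆ N := subset_union_right.trans hN.sub
  have hpre : ∀ i : PUnit.{u + 1}, pre P (fun _ : PUnit.{u + 1} => N) i = P := by
    intro i
    refine Subset.antisymm (union_subset Subset.rfl (iUnion_subset fun j => ?_)) subset_union_left
    exact absurd j.2 (by simp)
  have htot : tot P (fun _ : PUnit.{u + 1} => N) = N := by
    refine Subset.antisymm (union_subset hPN (iUnion_subset fun _ => Subset.rfl)) ?_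
    exact sub_tot P (fun _ : PUnit.{u + 1} => N) PUnit.unit
  have hch : PCh M P (fun _ : PUnit.{u + 1} => c) (fun _ : PUnit.{u + 1} => N) := by
    refine ⟨hP, fun i => ?_, fun i => ?_⟩
    · rw [hpre]
      exact Ind.of_sub Subset.rfl
    · rw [hpre]
      exact hN
  obtain ⟨N', h1⟩ := h PUnit.{u + 1} P _ _ hch (by
    rw [mk_punit]
    exact one_le_aleph0.trans M.hχ) (by
    rw [htot]
    exact (M.S_card hN.mem).le) Q hQ hPQ (by
    rw [htot]
    exact hN.dom hI)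
  rw [htot, union_comm] at h1
  exact ⟨N', h1⟩

/-- Independence of models is decided by the pieces of a bounded size. -/
def FP (M : PG C) : Prop := ∃ s < M.χ, ∀ D ∈ M.S, ∀ B ∈ M.S, ∀ Q ∈ M.S, D ⊆ B → D ⊆ Q →
  (∀ y ⊆ B, #y ≤ s → M.Ind D y Q) → M.Ind D B Q

end

section

variable {L : Language.{u, u}} (K : AEC L) (ℓ : Cardinal.{u}) (κf α : Cardinal.{u} → Cardinal.{u})

/-- The property `U` at all the saturated members of size `θ⁺`. -/
def AllPg (U : ∀ {C : Type u}, PG C → Prop) (θ : Cardinal.{u}) : Prop :=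
  ∀ (h₀ : BasePt K ℓ κf α θ) (hK : K.IsLS ℓ) (hunb : ∀ ν, ν < κf ν ∧ K.CategoricalIn (κf ν))
    (hst : Stab K ℓ α (H287.thr κf)) (C : Type u) [L.Structure C] (hCm : K.mem C)
    (hs : Sat K θ C) (hCc : #C = Order.succ θ), U (pg h₀ hK hunb hst hCm hs hCc)

variable {K ℓ κf α}

section

variable {θ Λ : Cardinal.{u}} {C : Type u} [L.Structure C] (h₀ : BasePt K ℓ κf α θ)
  (hK : K.IsLS ℓ) (hunb : ∀ ν, ν < κf ν ∧ K.CategoricalIn (κf ν))
  (hst : Stab K ℓ α (H287.thr κf)) (hCm : K.mem C) (hs : Sat K θ C) (hCc : #C = Order.succ θ)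

theorem pg_tmP : TmP (pg h₀ hK hunb hst hCm hs hCc) := by
  intro σ hσ
  obtain ⟨H, h1, h2⟩ := pg_exists_tm_two h₀ hK hunb hst hCm hs hCc hσ
  exact ⟨H, h1, fun P hP A hA B hB hPA hPB hI => h2 P A B hP hA hB hPA hPB hI⟩

/-- Atomic models over a model and a point. -/
theorem pg_di1' (hΛ : BasePt K ℓ κf α Λ) (hθΛ : θ < Λ) :
    ∀ P ∈ (pg h₀ hK hunb hst hCm hs hCc).S, ∀ c : C,
      ∃ N, (pg h₀ hK hunb hst hCm hs hCc).Atomic N ({c} ∪ P) := by
  rintro P ⟨D, hD, hDc, rfl⟩ c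
  obtain ⟨N, hN⟩ := pg_di1 h₀ hK hunb hst hCm hs hCc hΛ hθΛ hD hDc
    (fun _ : PUnit.{u + 1} => c)
  rw [range_const] at hN
  exact ⟨N, hN⟩

/-- **Pairs of models** in the instance. -/
theorem pg_fp (hΛ : BasePt K ℓ κf α Λ) (hθΛ : θ < Λ)
    (hC : Chn (pg h₀ hK hunb hst hCm hs hCc)) (hF : FreeM (pg h₀ hK hunb hst hCm hs hCc))
    (hT : TopJ (pg h₀ hK hunb hst hCm hs hCc)) : FP (pg h₀ hK hunb hst hCm hs hCc) :=
  exists_full_pair (hK.1.trans_lt h₀.pt.lt) (pg_calc h₀ hK hunb hst hCm hs hCc)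
    (pg_big h₀ hK hunb hst hCm hs hCc) hC hF (pg_di1' h₀ hK hunb hst hCm hs hCc hΛ hθΛ)
    hT.pt1 hT (pg_tmP h₀ hK hunb hst hCm hs hCc)

end

/-- **Pairs of models** at the base points of high rank. -/
theorem ev_fp (hF : Frame K ℓ κf α) (hC : Ev K ℓ κf α (AllPg K ℓ κf α Chn))
    (hFr : Ev K ℓ κf α (AllPg K ℓ κf α FreeM)) (hT : Ev K ℓ κf α (AllPg K ℓ κf α TopJ)) :
    Ev K ℓ κf α (AllPg K ℓ κf α FP) := by
  obtain ⟨r, hr⟩ := (hC.and hFr).and hT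
  refine ⟨r, fun θ hθ h₀ hK hunb hst C _ hCm hs hCc => ?_⟩
  obtain ⟨⟨h1, h2⟩, h3⟩ := hr θ hθ
  obtain ⟨Λ, hθΛ, hΛ⟩ := hF.exists_gt θ
  exact pg_fp h₀ hK hunb hst hCm hs hCc hΛ hθΛ (h1 h₀ hK hunb hst C hCm hs hCc)
    (h2 h₀ hK hunb hst C hCm hs hCc) (h3 h₀ hK hunb hst C hCm hs hCc)

/-- The same from the tops over proper prime chains. -/
theorem ev_fp' (hF : Frame K ℓ κf α) (hC : Ev K ℓ κf α (AllPg K ℓ κf α Chn))
    (hFr : Ev K ℓ κf α (AllPg K ℓ κf α FreeM)) (hT : Ev K ℓ κf α (AllPg K ℓ κf α TopJ')) :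
    Ev K ℓ κf α (AllPg K ℓ κf α FP) := by
  refine ev_fp hF hC hFr ?_
  obtain ⟨r, hr⟩ := hC.and hT
  refine ⟨r, fun θ hθ h₀ hK hunb hst C _ hCm hs hCc => ?_⟩
  obtain ⟨h1, h2⟩ := hr θ hθ
  exact TopJ'.topJ (h1 h₀ hK hunb hst C hCm hs hCc) (h2 h₀ hK hunb hst C hCm hs hCc)

end

end Vale.Agent.P307.R2.H27
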