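import Vale.Agent.P307.R2.H27.TrPt
import Vale.Agent.P307.R2.H27.Txk2
import Vale.Agent.P307.R2.H480.LeRow2
import Vale.Agent.P307.R2.H319.Hrefl

/-!
The rows of the shrinking in the induction on the dimension.
-/

set_option linter.unusedSectionVars false

universe u v

open FirstOrder Cardinal Set

namespace Vale.Agent.P307.R2.H27

open Vale.Agent.P307 Vale.Agent.P307.H304 Vale.Agent.P307.R2.H287 Vale.Agent.P307.R2.H1
  Vale.Agent.P307.R2.H806 Vale.Agent.P307.R2.H971 Vale.Agent.P307.R2.H541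
  Vale.Agent.P307.R2.H541.PG Vale.Agent.P307.R2.H533 Vale.Agent.P307.R2.H650
  Vale.Agent.P307.R2.H578 Vale.Agent.P307.R2.H718 Vale.Agent.P307.R2.H914
  Vale.Agent.P307.R2.H319 Vale.Agent.P307.R2.H480
  Language.Structure Language.Substructure
open Vale.Agent.P307.R2.H301 hiding TXK
open Vale.Agent.P307.R2.H732 (TXK)
open Vale.Agent.P307.R2.H514 (tH)

open scoped Classical

/-- Small isolating sets, over the boundaries of the extensions of the systems of dimension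
`1, …, n` by one direction. -/
def TinyE {C : Type u} (n : ℕ) (M : PG C) (τ : Cardinal.{u}) : Prop :=
  ∀ (ι : Type u) (A : Finset ι → Set C) (S : Finset ι) (c : ι), S.Nonempty → S.card ≤ n →
    Ext1 M A S c → TinyAt M τ (ibd A (insert c S))

variable {L : Language.{u, u}} {K : AEC L} {ℓ : Cardinal.{u}} {κf α : Cardinal.{u} → Cardinal.{u}}

/-- **Shrinking**, in the uniform form. -/
theorem evL_trΘ {k : ℕ} {Θ : ∀ C : Type u, PG C → Set C → Set C → Prop}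
    (hI : EvL K ℓ κf α fun _ M τ => TrIsoAt M τ)
    (hFr : EvM K ℓ κf α fun _ M => FreeM M) (hMd : EvM K ℓ κf α fun _ M => MdK k M)
    (hT : EvM K ℓ κf α fun _ M => TXK ℓ (k + 2) M)
    (hFU : EvM K ℓ κf α fun _ M => ∃ σ₀ < M.χ, FUn.{u, u} M σ₀ (k + 1))
    (hLE : EvL K ℓ κf α fun C M τ => LhΘ (Θ C M) M τ)
    (hSh : EvL K ℓ κf α fun _ M τ => ShEK k M τ)
    (hTy : EvL K ℓ κf α fun _ M τ => TinyE (k + 1) M τ) :
    EvL K ℓ κf α fun C M τ => ∀ (ι : Type u) (A : Finset ι → Set C) (S : Finset ι) (c : ι),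
      S.Nonempty → S.card ≤ k + 1 → Ext1 M A S c → Θ C M (A ∅) (A {c}) →
        TrR M τ (ibd A (insert c S)) := by
  obtain ⟨r₁, h1⟩ := (hFr.and hMd).and (hT.and hFU)
  obtain ⟨r₂, h2⟩ := (hSh.and hTy).and (hI.and hLE)
  refine ⟨max r₁ r₂, fun θ hθ h₀ hK hunb hst C _ hCm hs hCc => ?_⟩
  obtain ⟨⟨h3, h5⟩, h6, σ₀, h9, h10⟩ := h1 θ (hθ.mono (le_max_left _ _)) h₀ hK hunb hst C hCm hs hCc
  obtain ⟨τ₀, h7, h8⟩ := h2 θ (hθ.mono (le_max_right _ _)) h₀ hK hunb hst C hCm hs hCc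
  have hM := pg_calc h₀ hK hunb hst hCm hs hCc
  refine ⟨max τ₀ (Order.succ σ₀), max_lt h7 ((Order.succ_le_of_lt (cantor σ₀)).trans_lt
    (h₀.pow σ₀ h9)), fun τ h11 hτθ hτ => ?_⟩
  have hσ₀ : σ₀ < τ := (Order.lt_succ σ₀).trans_le ((le_max_right _ _).trans h11)
  obtain ⟨⟨hSH, hTY⟩, hIS, σ₁, hσ₁, hLH⟩ :=
    h8 τ ((le_max_left _ _).trans h11) hτθ (hτ.mono (le_max_right _ _))
  intro ι A S c hS hSk hE hΘ
  have hcs : (insert c S).card = S.card + 1 := Finset.card_insert_of_notMem hE.notMem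
  have hcard : ∀ v ∈ (insert c S).ssubsets, v.card < (insert c S).card := fun v hv =>
    Finset.card_lt_card (Finset.mem_ssubsets.1 hv)
  refine trR_of_tiny (aleph0_le_pt hτ.base hK) hIS (hTY ι A S c hS hSk hE)
    fun R b hRc hb hbc hbi => ?_
  refine pg_hrefl h₀ hK hunb hst hCm hs hCc hτ.base hτθ h3 (fun j _ hj => h5 ι j (by omega))
    (fun w hw _ A' hA' hR' σ hσ ρ hρ => ?_) hσ₀ (fun w hw hw0 A' hA' hR' =>
      h10 ι w hw0 (by have := hcard w hw; omega) A' hA' hR') (fun j hj => ?_) hE.fam (hE.ref hM)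
    (fun σ hσ ρ hρ => ?_) hσ₁ (hLH ι A S c hS hE hΘ) hRc.le hb hbc hbi
  · have h12 := h6 ι A' w w.ssubsets (by have := hcard w hw; omega) Finset.Subset.rfl hA' hR'
      σ hσ ρ hρ
    rwa [iun_ssubsets] at h12
  · refine sha_of_trN hτθ.le fun A' S' c' hS0 hSj hE' N hN => hSH ι A' S' c' hS0 ?_ hE' N hN
    rw [Finset.card_insert_of_notMem hE'.notMem] at hSj
    omega
  · have h12 := h6 ι A (insert c S) (insert c S).ssubsets (by omega) Finset.Subset.rfl hE.fam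
      (hE.ref hM) σ hσ ρ hρ
    rwa [iun_ssubsets] at h12

/-- The rows, from the small isolating sets. -/
theorem rowsX_of_tiny (hF : Frame K ℓ κf α) (hI : EvL K ℓ κf α fun _ M τ => TrIsoAt M τ)
    (hTy : ∀ k, (EvM K ℓ κf α fun _ M => FreeM M) → (EvM K ℓ κf α fun _ M => MdK k M) →
      (EvM K ℓ κf α fun _ M => TXK ℓ (k + 2) M) →
      (EvM K ℓ κf α fun _ M => ∃ σ₀ < M.χ, FUn.{u, u} M σ₀ (k + 1)) →
      (EvL K ℓ κf α fun _ M τ => JRE (k + 1) M τ) →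
      EvL K ℓ κf α fun _ M τ => TinyE (k + 1) M τ) : RowsX K ℓ κf α := by
  have hFr := evM_free hF
  have h0 : EvM K ℓ κf α fun _ M => MdK 0 M := ⟨0, fun θ _ => fun h₀ hK hunb hst C _ hCm hs hCc
    ι j hj => tops_zero θ h₀ hK hunb hst C hCm hs hCc ι j hj⟩
  have hFU0 : EvM K ℓ κf α fun _ M => ∃ σ₀ < M.χ, FUn.{u, u} M σ₀ (0 + 1) :=
    ⟨0, fun θ _ h₀ hK hunb hst C _ hCm hs hCc => ⟨ℓ, h₀.pt.lt, fun_one ℓ⟩⟩
  have hSh0 : EvL K ℓ κf α fun _ M τ => ShEK 0 M τ :=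
    EvL.of_all (r := 0) fun _ _ _ _ _ _ _ _ _ _ _ _ _ _ => shEK_zero
  have hTy0 := hTy 0 hFr h0 evM_txk2 hFU0 (H319.evL_jr2.imp fun _ _ _ h => h.jre)
  refine ⟨?_, fun hPt => ?_, fun k hKn hSh hJ => ?_⟩
  · refine (evL_trΘ (k := 0) (Θ := fun _ M P A => ∃ p : Set _, p.Finite ∧ M.Atomic A (p ∪ P))
      hI hFr h0 evM_txk2 hFU0 evL_lh_fin hSh0 hTy0).imp fun C M τ h ι A S c hS hE hΘ _ => ?_
    exact h ι A S c (Finset.card_pos.1 (by omega)) hS.le hE hΘ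
  · refine (evL_trΘ (k := 0) (Θ := fun _ M => PJ M) hI hFr h0 evM_txk2 hFU0
      (evL_lh_pj hF hPt) hSh0 hTy0).imp fun C M τ h ι A S c hS hE hΘ _ => ?_
    exact h ι A S c (Finset.card_pos.1 (by omega)) hS.le hE hΘ
  · have hFU : EvM K ℓ κf α fun _ M => ∃ σ₀ < M.χ, FUn.{u, u} M σ₀ (k + 1) := by
      obtain ⟨r, h⟩ := (hKn.fp.and hKn.md).and hKn.tx
      refine ⟨r, fun θ hθ h₀ hK hunb hst C _ hCm hs hCc => ?_⟩
      obtain ⟨⟨h4, h5⟩, h6⟩ := h θ hθ h₀ hK hunb hst C hCm hs hCc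
      exact exists_funW h₀ hK hunb hst hCm hs hCc h4 h5 h6
    refine (evL_trΘ (k := k) (Θ := fun _ _ _ _ => True) hI hFr hKn.md hKn.tx hFU
      (evL_lh hKn.fp) hSh (hTy k hFr hKn.md hKn.tx hFU hJ)).imp
      fun C M τ h ι A S c hS hSk hE _ => ?_
    exact h ι A S c hS hSk hE trivial

end Vale.Agent.P307.R2.H27
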