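import Vale.Agent.P307.R2.H287.TopR
import Vale.Agent.P307.R2.H578.JR1

/-!
Shrinking of the isolating sets into the closed traces, from joint reflection over the union of the
set and of an isolated set, and from the shrinking to isolating sets which are small at the level of
the traces.
-/

set_option linter.unusedSectionVars false

universe u v

open Set Cardinal Function

namespace Vale.Agent.P307.R2.H27

open Vale.Agent.P307.R2.H541 Vale.Agent.P307.R2.H541.PG Vale.Agent.P307.R2.H533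
  Vale.Agent.P307.R2.H578
open Vale.Agent.P307.R2.H68 (Clo exists_clo)

open scoped Classical

variable {C : Type u}

/-- Every set of size less than `τ` which is isolated over `X` is isolated by a subset of `X` of
size less than `τ`. -/
def TinyAt (M : PG C) (τ : Cardinal.{u}) (X : Set C) : Prop :=
  ∀ e : Set C, #e < τ → (∃ B ⊆ X, #B < M.χ ∧ M.Isol B X e) → ∃ B ⊆ X, #B < τ ∧ M.Isol B X e

/-- An isolating set of size less than `τ`, whose copies over the pieces of the trace exist in the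
trace, may be chosen in the trace. -/
def TrIsoAt (M : PG C) (τ : Cardinal.{u}) : Prop := ∀ X H e B₁ : Set C, #e < τ → B₁ ⊆ X →
  #B₁ < τ → M.Isol B₁ X e → (∀ c ⊆ X ∩ H, #c < τ → ∃ k ∈ M.G, (∀ a ∈ e, k a = a) ∧
    (∀ a ∈ c, k a = a) ∧ ∀ b ∈ B₁, k b ∈ X ∩ H) → ∃ B ⊆ X ∩ H, #B < τ ∧ M.Isol B X e

variable {M : PG C} {τ : Cardinal.{u}} {ι : Type v} {A : Finset ι → Set C} {s : Finset ι}

/-- **Shrinking**, pointwise. -/
theorem trR_of_tiny (hτ : ℵ₀ ≤ τ) (hI : TrIsoAt M τ) (hT : TinyAt M τ (ibd A s))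
    (hJ : ∀ R b : Set C, #R < M.χ → b ⊆ ibd A s → #b < M.χ → M.Isol b (ibd A s) R →
      JRp M τ A s.ssubsets (ibd A s ∪ R)) : TrR M τ (ibd A s) := by
  refine ⟨fun R hR hRi => ?_⟩
  obtain ⟨b, hb, hbc, hbi⟩ := hRi
  have hRc : #R < M.χ := M.T_card hR
  obtain ⟨φ, h1, h2⟩ := hJ R b hRc hb hbc hbi
  refine ⟨φ, h1, fun H hH hHc e he hec heB => ?_⟩
  obtain ⟨B, hB, hBi⟩ := heB
  obtain ⟨B₁, hB₁, hB₁c, hB₁i⟩ := hT e hec ⟨B, hB.trans inter_subset_left,
    PG.small_subset (hB.trans inter_subset_right) hRc, hBi⟩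
  refine hI (ibd A s) H e B₁ hec hB₁ hB₁c hB₁i fun c hc hcc => ?_
  have hB₁' : B₁ ⊆ iun A s.ssubsets := by rwa [iun_ssubsets]
  obtain ⟨g, hg, h3, h4⟩ := h2 H hH hHc B₁ hB₁' hB₁c (e ∪ c) (union_subset
    (fun x hx => ⟨Or.inr (he hx).1, (he hx).2⟩) fun x hx => ⟨Or.inl (hc hx).1, (hc hx).2⟩)
    ((mk_union_le _ _).trans_lt (add_lt_of_lt hτ hec hcc))
  refine ⟨g, hg, fun a ha => h3 a (Or.inl ha), fun a ha => h3 a (Or.inr ha), fun b' hb' => ?_⟩
  obtain ⟨v, hv, hbv⟩ := hB₁' hb'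
  have h5 := h4 v hv b' hb' hbv
  exact ⟨⟨v, Finset.mem_ssubsets.1 hv, h5.1⟩, h5.2⟩

end Vale.Agent.P307.R2.H27
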