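import Vale.Agent.P307.R2.H27.TrRow
import Vale.Agent.P307.R2.H732.TinyRow
import Vale.Agent.P307.R2.H844.TrIsoPg

/-!
All the rows of the shrinking.
-/

set_option linter.unusedSectionVars false

universe u v

open FirstOrder Cardinal Set

namespace Vale.Agent.P307.R2.H27

open Vale.Agent.P307 Vale.Agent.P307.H304 Vale.Agent.P307.R2.H287 Vale.Agent.P307.R2.H1
  Vale.Agent.P307.R2.H806 Vale.Agent.P307.R2.H971 Vale.Agent.P307.R2.H541
  Vale.Agent.P307.R2.H541.PG Vale.Agent.P307.R2.H533 Vale.Agent.P307.R2.H650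
  Vale.Agent.P307.R2.H578 Vale.Agent.P307.R2.H718 Vale.Agent.P307.R2.H914
  Vale.Agent.P307.R2.H319 Vale.Agent.P307.R2.H480
  Language.Structure Language.Substructure
open Vale.Agent.P307.R2.H301 hiding TXK
open Vale.Agent.P307.R2.H732 (TXK)

open scoped Classical

variable {L : Language.{u, u}} {K : AEC L} {ℓ : Cardinal.{u}} {κf α : Cardinal.{u} → Cardinal.{u}}

/-- Small isolating sets are moved into the traces, at all the base points. -/
theorem evL_trIsoAt : EvL K ℓ κf α fun _ M τ => TrIsoAt M τ :=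
  EvL.of_all (r := 0) fun _ _ hτθ _ hτ h₀ hK hunb hst _ _ hCm hs hCc =>
    H844.pg_trIsoAt h₀ hK hunb hst hCm hs hCc hτ hτθ.le

/-- **All the rows of the shrinking.** -/
theorem rowsX (hF : Frame K ℓ κf α) : RowsX K ℓ κf α :=
  rowsX_of_tiny hF evL_trIsoAt fun _ => H732.evL_tinyE

end Vale.Agent.P307.R2.H27
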