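import Vale.Agent.P307.R2.H541.Ext

/-!
Independence of a small set over a model from another model is decided by pieces of a bounded size.
-/

set_option linter.unusedSectionVars false

universe u

open Set Cardinal Function

namespace Vale.Agent.P307.R2.H27

open Vale.Agent.P307.R2.H541 Vale.Agent.P307.R2.H541.PG

variable {C : Type u} {M : PG C}

/-- Uniform tameness of the types over the union of two independent models over a third one. -/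
def TmP (M : PG C) : Prop := ∀ σ < M.χ, ∃ H < M.χ, ∀ P ∈ M.S, ∀ A ∈ M.S, ∀ B ∈ M.S, P ⊆ A →
  P ⊆ B → M.Ind P A B → ∀ E : Set C, #E ≤ σ → ∀ g ∈ M.G,
    (∀ D ⊆ A ∪ B, #D ≤ H → ∃ h ∈ M.G, (∀ a ∈ D, h a = a) ∧ ∀ e ∈ E, h e = g e) →
      ∀ D ⊆ A ∪ B, #D < M.χ → ∃ h ∈ M.G, (∀ a ∈ D, h a = a) ∧ ∀ e ∈ E, h e = g e

/-- Uniform tameness over models. -/
theorem TmP.one (h : TmP M) : ∀ σ < M.χ, ∃ H < M.χ, ∀ N ∈ M.S, ∀ E : Set C, #E ≤ σ → ∀ g ∈ M.G,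
    (∀ D ⊆ N, #D ≤ H → ∃ h ∈ M.G, (∀ a ∈ D, h a = a) ∧ ∀ e ∈ E, h e = g e) →
      ∀ D ⊆ N, #D < M.χ → ∃ h ∈ M.G, (∀ a ∈ D, h a = a) ∧ ∀ e ∈ E, h e = g e := by
  intro σ hσ
  obtain ⟨H, hH, h1⟩ := h σ hσ
  refine ⟨H, hH, fun N hN => ?_⟩
  have h2 := h1 N hN N hN N hN Subset.rfl Subset.rfl (Ind.of_sub Subset.rfl)
  rwa [union_self] at h2

/-- **One step.** A small set `x` which is free over `D` from `Q` together with the bounded pieces
of `N` is free over `N` from `Q`, if `N` and `Q` are independent over `D`. -/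
theorem ind_succ (hM : M.Calc) (hB : M.Big) (hT : TmP M) {σ : Cardinal.{u}} (hσ : σ < M.χ) :
    ∃ s < M.χ, ∀ D ∈ M.S, ∀ N ∈ M.S, ∀ Q ∈ M.S, D ⊆ N → D ⊆ Q → M.Ind D N Q →
      ∀ x : Set C, #x ≤ σ → (∀ y ⊆ N, #y ≤ s → M.Ind D (x ∪ y) Q) → M.Ind N x Q := by
  obtain ⟨τ, hτ, hT2⟩ := hT σ hσ
  obtain ⟨s, hs, hT1⟩ := hT.one (σ + τ) (add_lt_of_lt M.hχ hσ hτ)
  refine ⟨max s τ, max_lt hs hτ, fun D hD N hN Q hQ hDN hDQ hI x hx hy => ?_⟩
  have hxc : #x < M.χ := hx.trans_lt hσ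
  -- a free copy of `x`
  obtain ⟨w, hw, hwN, hwI⟩ := hB.free (P := N) (E := x) (Z := Q) hN hxc (M.S_card hQ).le
  have hw1 : M.Ind D Q (N ∪ w '' x) :=
    (hM.sym hD hI).trans (hM.sym hN hwI).base_right hDN
  -- the two copies have the same type over small pieces of `Q` and bounded pieces of `N`
  have key : ∀ q ⊆ Q, #q < M.χ → ∀ y ⊆ N, #y ≤ max s τ →
      ∃ h ∈ M.G, (∀ a ∈ q, h a = a) ∧ (∀ a ∈ y, h a = a) ∧ ∀ a ∈ x, h a = w a := by
    intro q hq hqc y hyN hyc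
    obtain ⟨p, hp, -, hb⟩ := hM.based hD (E := q) hqc
    have hyc' : #y < M.χ := hyc.trans_lt (max_lt hs hτ)
    obtain ⟨h, hh, -, h1, h2⟩ := hb w hw (fun a ha => hwN a (hDN (hp ha))) (x ∪ y)
      (small_union hxc hyc') ((hM.sym hD (hy y hyN hyc)).mono hq Subset.rfl)
      (hw1.mono hq (by
        rintro _ ⟨a, ha | ha, rfl⟩
        · exact Or.inr ⟨a, ha, rfl⟩
        · rw [hwN a (hyN ha)]
          exact Or.inl (hyN ha)))
    refine ⟨h, hh, h1, fun a ha => ?_, fun a ha => h2 a (Or.inl ha)⟩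
    rw [h2 a (Or.inr ha), hwN a (hyN ha)]
  -- small pieces of `N`, bounded pieces of `Q`
  have key2 : ∀ q ⊆ Q, #q ≤ τ → ∀ y ⊆ N, #y < M.χ →
      ∃ h ∈ M.G, (∀ a ∈ q, h a = a) ∧ (∀ a ∈ y, h a = a) ∧ ∀ a ∈ x, h a = w a := by
    intro q hq hqc y hyN hyc
    obtain ⟨h0, hh0, h01, -, h02⟩ := key q hq (hqc.trans_lt hτ) ∅ (empty_subset N) (by simp)
    obtain ⟨h, hh, h1, h2⟩ := hT1 N hN (x ∪ q) ((mk_union_le _ _).trans (add_le_add hx hqc)) h0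
      hh0 (by
        intro z hz hzc
        obtain ⟨h, hh, h1, h2, h3⟩ := key q hq (hqc.trans_lt hτ) z hz (hzc.trans (le_max_left _ _))
        refine ⟨h, hh, h2, fun e he => ?_⟩
        rcases he with he | he
        · rw [h3 e he, h02 e he]
        · rw [h1 e he, h01 e he]) y hyN hyc
    refine ⟨h, hh, fun a ha => ?_, h1, fun a ha => ?_⟩
    · rw [h2 a (Or.inr ha), h01 a ha]
    · rw [h2 a (Or.inl ha), h02 a ha]
  -- all small pieces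
  have key3 : ∀ z ⊆ N ∪ Q, #z < M.χ → ∃ h ∈ M.G, (∀ a ∈ z, h a = a) ∧ ∀ a ∈ x, h a = w a := by
    refine hT2 D hD N hN Q hQ hDN hDQ hI x hx w hw fun z hz hzc => ?_
    have hzc' : #z < M.χ := hzc.trans_lt hτ
    obtain ⟨h, hh, h1, h2, h3⟩ := key2 (z ∩ Q) inter_subset_right
      ((mk_le_mk_of_subset inter_subset_left).trans hzc) (z ∩ N) inter_subset_right
      (small_subset inter_subset_left hzc')
    refine ⟨h, hh, fun a ha => ?_, h3⟩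
    rcases hz ha with h4 | h4
    · exact h2 a ⟨ha, h4⟩
    · exact h1 a ⟨ha, h4⟩
  -- conclusion
  intro A hA hAc B hBQ hBc
  have hAx : #(A ∩ x : Set C) < M.χ := small_subset inter_subset_left hAc
  have hAN : #(A ∩ N : Set C) < M.χ := small_subset inter_subset_left hAc
  obtain ⟨k, hk, hk1, hk2⟩ := hwI ((A ∩ N) ∪ w '' (A ∩ x)) (by
    rintro a (ha | ⟨b, hb, rfl⟩)
    · exact Or.inl ha.2
    · exact Or.inr ⟨b, hb.2, rfl⟩) (small_union hAN (small_image w hAx)) B hBQ hBc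
  obtain ⟨h, hh, h1, h2⟩ := key3 ((A ∩ N) ∪ B) (by
    rintro a (ha | ha)
    · exact Or.inl ha.2
    · exact Or.inr (hBQ ha)) (small_union hAN hBc)
  obtain ⟨h', hh', h1', h2'⟩ := key3 ((A ∩ N) ∪ k '' B) (by
    rintro a (ha | ⟨b, hb, rfl⟩)
    · exact Or.inl ha.2
    · exact Or.inl (hk2 b hb)) (small_union hAN (small_image k hBc))
  refine ⟨h'⁻¹ * k * h, M.G.mul_mem (M.G.mul_mem (M.G.inv_mem hh') hk) hh, fun a ha => ?_,
    fun b hb => ?_⟩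
  · change h'⁻¹ (k (h a)) = a
    rcases hA ha with h3 | h3
    · rw [h1 a (Or.inl ⟨ha, h3⟩), hk1 a (Or.inl ⟨ha, h3⟩)]
      exact fix_inv (h1' a (Or.inl ⟨ha, h3⟩))
    · rw [h2 a h3, hk1 (w a) (Or.inr ⟨a, ⟨ha, h3⟩, rfl⟩), ← h2' a h3, inv_ap]
  · change h'⁻¹ (k (h b)) ∈ N
    rw [h1 b (Or.inr hb), fix_inv (h1' (k b) (Or.inr ⟨b, hb, rfl⟩))]
    exact hk2 b hb

end Vale.Agent.P307.R2.H27
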